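import Mathlib
import Crest.Prelude.Def_BoxFlow
import Crest.Agent.Helper25.BoxPlanDefs

/-!
# Motion plan for S0170 (pure box geometry)

The vocabulary (`Move`, `Reach`) is in `Crest.Agent.Helper25.BoxPlanDefs` (namespace
`Crest.Agent.Helper11`).  `Reach O P Q` : the placement `P` of the tracked points (`P i x` is the
current position of the source point `x ∈ O i` of box `i`) can be transformed into the placement
`Q` by finitely many elementary moves.

Here we work with the auxiliary relation `ReachW` (the same, but the trivial step is allowed up to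
agreement on the tracked sets) and convert at the very end.

Main result: `exists_plan`.
-/

namespace Crest.Agent.Helper11

open Crest.AnalysisR.BoxFlow

/-- `ReachW O P Q`: as `Reach O P Q`, but the reflexivity step is up to agreement on the tracked
sets `O i`. -/
inductive ReachW {n : ℕ} (O : Fin n → Set E3) :
    (Fin n → E3 → E3) → (Fin n → E3 → E3) → Prop
  | refl (P Q : Fin n → E3 → E3) (h : ∀ i, ∀ x ∈ O i, P i x = Q i x) : ReachW O P Q
  | step (M : Move) (P Q R : Fin n → E3 → E3)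
      (h : ∀ i, ∀ x ∈ O i,
        (P i x ∈ M.inner ∧ M.map (P i x) ∈ M.inner ∧ Q i x = M.map (P i x)) ∨
        (P i x ∈ M.outer ∧ Q i x = P i x))
      (rest : ReachW O Q R) : ReachW O P R

variable {n : ℕ} {O : Fin n → Set E3}

theorem ReachW.rfl' (P : Fin n → E3 → E3) : ReachW O P P := ReachW.refl P P (fun _ _ _ => rfl)

theorem ReachW.congr_left {P P' Q : Fin n → E3 → E3} (h : ReachW O P Q)
    (hP : ∀ i, ∀ x ∈ O i, P i x = P' i x) : ReachW O P' Q := by
  induction h with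
  | refl P Q h => exact ReachW.refl _ _ (fun i x hx => by rw [← hP i x hx, h i x hx])
  | step M P Q R h rest _ =>
    refine ReachW.step M P' Q R (fun i x hx => ?_) rest
    rw [← hP i x hx]; exact h i x hx

theorem ReachW.trans {P Q R : Fin n → E3 → E3} (h₁ : ReachW O P Q) (h₂ : ReachW O Q R) :
    ReachW O P R := by
  induction h₁ with
  | refl P Q h => exact h₂.congr_left (fun i x hx => (h i x hx).symm)
  | step M P Q S h _ ih => exact ReachW.step M P Q R h (ih h₂)

theorem ReachW.congr_right {P Q Q' : Fin n → E3 → E3} (h : ReachW O P Q)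
    (hQ : ∀ i, ∀ x ∈ O i, Q i x = Q' i x) : ReachW O P Q' :=
  h.trans (ReachW.refl _ _ hQ)

/-- The reverse of a move. -/
def Move.neg (M : Move) : Move :=
  { M with α := -M.α, κ := -M.κ, hkind := by rcases M.hkind with h | h <;> simp [h] }

theorem Move.map_apply_l (M : Move) (y : E3) : M.map y M.l = y M.l := by
  simp [Move.map, M.hjl.symm]

theorem Move.neg_map_map (M : Move) (y : E3) : M.neg.map (M.map y) = y := by
  have h := M.map_apply_l y
  funext m
  simp only [Move.map, Move.neg] at h ⊢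
  simp only [Pi.add_apply, Pi.smul_apply, smul_eq_mul, Rat.cast_neg] at h ⊢
  rw [h]; ring

theorem ReachW.symm {P Q : Fin n → E3 → E3} (h : ReachW O P Q) : ReachW O Q P := by
  induction h with
  | refl P Q h => exact ReachW.refl _ _ (fun i x hx => (h i x hx).symm)
  | step M P Q R h _ ih =>
    refine ih.trans (ReachW.step M.neg Q P P (fun i x hx => ?_) (ReachW.rfl' P))
    rcases h i x hx with ⟨h1, h2, h3⟩ | ⟨h1, h2⟩
    · left
      refine ⟨?_, ?_, ?_⟩
      · rw [h3]; exact h2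
      · rw [h3, M.neg_map_map]; exact h1
      · rw [h3, M.neg_map_map]
    · right
      exact ⟨by rw [h2]; exact h1, h2.symm⟩

/-- Precomposition with maps of the tracked sets. -/
theorem ReachW.comp {O' : Fin n → Set E3} (f : Fin n → E3 → E3)
    (hf : ∀ i, ∀ x ∈ O i, f i x ∈ O' i) {P Q : Fin n → E3 → E3} (h : ReachW O' P Q) :
    ReachW O (fun i x => P i (f i x)) (fun i x => Q i (f i x)) := by
  induction h with
  | refl P Q h => exact ReachW.refl _ _ (fun i x hx => h i _ (hf i x hx))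
  | step M P Q R h _ ih =>
    exact ReachW.step M _ _ _ (fun i x hx => h i _ (hf i x hx)) ih

/-- A single move of the points of one box `i₀`. -/
theorem ReachW.move (M : Move) (i₀ : Fin n) (P Q : Fin n → E3 → E3)
    (h₀ : ∀ x ∈ O i₀, P i₀ x ∈ M.inner ∧ M.map (P i₀ x) ∈ M.inner ∧ Q i₀ x = M.map (P i₀ x))
    (h₁ : ∀ i, i ≠ i₀ → ∀ x ∈ O i, P i x ∈ M.outer ∧ Q i x = P i x) : ReachW O P Q := by
  refine ReachW.step M P Q Q (fun i x hx => ?_) (ReachW.rfl' Q)
  by_cases hi : i = i₀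
  · subst hi; exact Or.inl (h₀ x hx)
  · exact Or.inr (h₁ i hi x hx)

/-- Conversion to the strict relation `Reach`. -/
theorem ReachW.toReach {P Q : Fin n → E3 → E3} (h : ReachW O P Q) :
    ∀ Q' : Fin n → E3 → E3, (∀ i, ∀ x ∈ O i, Q i x = Q' i x) →
      (∀ i, ∀ x ∈ O i, P i x = Q' i x) ∨ Reach O P Q' := by
  induction h with
  | refl P Q h => intro Q' hQ; exact Or.inl (fun i x hx => (h i x hx).trans (hQ i x hx))
  | step M P Q R h _ ih =>
    intro R' hR
    right
    rcases ih R' hR with h1 | h1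
    · refine Reach.step M P R' R' (fun i x hx => ?_) (Reach.refl R')
      rw [← h1 i x hx]; exact h i x hx
    · exact Reach.step M P Q R' h h1


/-- A single affine move (translation if `κ = 0`, shear if `α = 0`) of the points of box `i₀`,
in coordinates. -/
theorem ReachW.affine (i₀ : Fin n) (j l : Fin 3) (hjl : j ≠ l) (α κ c : ℚ) (hkind : κ = 0 ∨ α = 0)
    (lo hi : Fin 3 → ℚ) (ε : ℚ) (hε : 0 < ε) (hlohi : ∀ m, lo m < hi m)
    (P Q : Fin n → E3 → E3)
    (hin : ∀ x ∈ O i₀, ∀ m, (lo m : ℝ) < P i₀ x m ∧ P i₀ x m < (hi m : ℝ))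
    (hin' : ∀ x ∈ O i₀, (lo j : ℝ) < P i₀ x j + ((α : ℝ) + κ * (P i₀ x l - c)) ∧
      P i₀ x j + ((α : ℝ) + κ * (P i₀ x l - c)) < (hi j : ℝ))
    (hQ : ∀ x ∈ O i₀, ∀ m, Q i₀ x m =
      if m = j then P i₀ x j + ((α : ℝ) + κ * (P i₀ x l - c)) else P i₀ x m)
    (hout : ∀ i, i ≠ i₀ → ∀ x ∈ O i,
      (∃ m, P i x m < (lo m : ℝ) - ε ∨ (hi m : ℝ) + ε < P i x m) ∧ Q i x = P i x) :
    ReachW O P Q := by
  set M : Move := ⟨j, l, hjl, α, κ, c, lo, hi, ε, hlohi, hε, hkind⟩ with hM
  have hmap : ∀ y : E3, ∀ m, M.map y m = if m = j then y j + ((α : ℝ) + κ * (y l - c)) else y m := by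
    intro y m
    by_cases hm : m = j
    · subst hm; simp [Move.map, hM]
    · simp [Move.map, hM, hm]
  refine ReachW.move M i₀ P Q (fun x hx => ⟨fun m => hin x hx m, fun m => ?_, ?_⟩)
    (fun i hi x hx => ⟨(hout i hi x hx).1, (hout i hi x hx).2⟩)
  · rw [hmap]
    by_cases hm : m = j
    · subst hm; simpa using hin' x hx
    · simpa [hm] using hin x hx m
  · funext m; rw [hmap, hQ x hx m]

/-- The open box with rational centre `c` and rational half-widths `w`. -/
def obox (c w : Fin 3 → ℚ) : Set E3 := {x | ∀ m, |x m - (c m : ℝ)| < (w m : ℝ)}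

theorem isOpen_obox (c w : Fin 3 → ℚ) : IsOpen (obox c w) := by
  have : obox c w = ⋂ m, {x : E3 | |x m - (c m : ℝ)| < (w m : ℝ)} := by
    ext x; simp [obox]
  rw [this]
  exact isOpen_iInter_of_finite (fun m => isOpen_lt (by fun_prop) continuous_const)

theorem box_subset_obox (c h w : Fin 3 → ℚ) (hw : ∀ m, h m < w m) : box c h ⊆ obox c w := by
  intro x hx m
  have h1 := hx m
  have h2 : (h m : ℝ) < (w m : ℝ) := by exact_mod_cast hw m
  linarith

theorem mem_obox_iff {c w : Fin 3 → ℚ} {x : E3} :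
    x ∈ obox c w ↔ ∀ m, (c m : ℝ) - w m < x m ∧ x m < (c m : ℝ) + w m := by
  simp only [obox, Set.mem_ofPred_eq, abs_lt]
  constructor
  · intro h m; constructor <;> linarith [(h m).1, (h m).2]
  · intro h m; constructor <;> linarith [(h m).1, (h m).2]

/-! ### Phase 1: lifting all boxes to a parking position -/

section Lift

variable (c w p : Fin n → Fin 3 → ℚ) (ε : ℚ)

/-- Placement during phase 1: boxes in `s` are parked, box `i₀` has offset `u`, the others are
at home. -/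
def liftState (s : Finset (Fin n)) (i₀ : Fin n) (u : Fin 3 → ℚ) : Fin n → E3 → E3 :=
  fun i x => if i = i₀ then (fun m => x m + (u m : ℝ))
    else if i ∈ s then (fun m => x m - (c i m : ℝ) + (p i m : ℝ)) else x

theorem lift_slide (s : Finset (Fin n)) (i₀ : Fin n) (j l : Fin 3) (hjl : j ≠ l)
    (u u' : Fin 3 → ℚ) (hu : ∀ m, m ≠ j → u' m = u m) (hw : ∀ m, 0 < w i₀ m) (hε : 0 < ε)
    (hout : ∀ i, i ≠ i₀ → ∀ x ∈ obox (c i) (w i), ∃ m,
      liftState c p s i₀ u i x m < ((c i₀ m + min (u m) (u' m) - w i₀ m : ℚ) : ℝ) - ε ∨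
      ((c i₀ m + max (u m) (u' m) + w i₀ m : ℚ) : ℝ) + ε < liftState c p s i₀ u i x m) :
    ReachW (fun i => obox (c i) (w i)) (liftState c p s i₀ u) (liftState c p s i₀ u') := by
  refine ReachW.affine i₀ j l hjl (u' j - u j) 0 0 (Or.inl rfl)
    (fun m => c i₀ m + min (u m) (u' m) - w i₀ m) (fun m => c i₀ m + max (u m) (u' m) + w i₀ m)
    ε hε ?_ _ _ ?_ ?_ ?_ ?_
  · intro m
    have h1 : min (u m) (u' m) ≤ max (u m) (u' m) := min_le_max
    have h2 := hw m
    linarith
  · intro x hx m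
    have hx' := (mem_obox_iff.mp hx) m
    have h1 : (min (u m) (u' m) : ℝ) ≤ u m := min_le_left _ _
    have h2 : (u m : ℝ) ≤ max (u m : ℝ) (u' m) := le_max_left _ _
    simp only [liftState, if_true]
    push_cast
    constructor <;> linarith [hx'.1, hx'.2]
  · intro x hx
    have hx' := (mem_obox_iff.mp hx) j
    have h1 : (min (u j) (u' j) : ℝ) ≤ u' j := min_le_right _ _
    have h2 : (u' j : ℝ) ≤ max (u j : ℝ) (u' j) := le_max_right _ _
    simp only [liftState, if_true]
    push_cast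
    constructor <;> linarith [hx'.1, hx'.2]
  · intro x hx m
    simp only [liftState, if_true]
    by_cases hm : m = j
    · subst hm; simp
    · simp [hm, hu m hm]
  · intro i hi x hx
    refine ⟨hout i hi x hx, ?_⟩
    simp [liftState, hi]

/-- Placement with the boxes in `s` parked and the others at home. -/
def parkState (s : Finset (Fin n)) : Fin n → E3 → E3 :=
  fun i x => if i ∈ s then (fun m => x m - (c i m : ℝ) + (p i m : ℝ)) else x

/-- Tubes inside the private slab of box `i₀` avoid every other box. -/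
theorem slab_out (hw : ∀ i m, 0 < w i m)
    (hhigh : ∀ i i', c i 2 + w i 2 + ε + w i' 2 < p i' 2)
    (hslab : ∀ i i', i ≠ i' → w i 2 + w i' 2 + ε ≤ |p i 2 - p i' 2|)
    (s : Finset (Fin n)) (i₀ : Fin n) (u u' : Fin 3 → ℚ)
    (h2 : u 2 = p i₀ 2 - c i₀ 2) (h2' : u' 2 = p i₀ 2 - c i₀ 2) :
    ∀ i, i ≠ i₀ → ∀ x ∈ obox (c i) (w i), ∃ m,
      liftState c p s i₀ u i x m < ((c i₀ m + min (u m) (u' m) - w i₀ m : ℚ) : ℝ) - ε ∨
      ((c i₀ m + max (u m) (u' m) + w i₀ m : ℚ) : ℝ) + ε < liftState c p s i₀ u i x m := by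
  intro i hi x hx
  have hx2 := (mem_obox_iff.mp hx) 2
  refine ⟨2, ?_⟩
  rw [h2, h2', min_self, max_self]
  by_cases his : i ∈ s
  · have hy : liftState c p s i₀ u i x 2 = x 2 - (c i 2 : ℝ) + (p i 2 : ℝ) := by
      simp [liftState, hi, his]
    rw [hy]
    rcases le_abs.mp (hslab i₀ i (Ne.symm hi)) with hA | hB
    · left
      have hA' : (w i₀ 2 : ℝ) + w i 2 + ε ≤ (p i₀ 2 : ℝ) - p i 2 := by exact_mod_cast hA
      push_cast
      linarith [hx2.2]
    · right
      have hB' : (w i₀ 2 : ℝ) + w i 2 + ε ≤ -((p i₀ 2 : ℝ) - p i 2) := by exact_mod_cast hB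
      push_cast
      linarith [hx2.1]
  · have hy : liftState c p s i₀ u i x 2 = x 2 := by
      simp [liftState, hi, his]
    rw [hy]
    left
    have h := hhigh i i₀
    have h' : (c i 2 : ℝ) + w i 2 + ε + w i₀ 2 < (p i₀ 2 : ℝ) := by exact_mod_cast h
    push_cast
    linarith [hx2.2]

theorem lift_one (hε : 0 < ε) (hw : ∀ i m, 0 < w i m)
    (hsep : ∀ i i', i ≠ i' → ∃ m, w i m + w i' m + ε ≤ |c i m - c i' m|)
    (hfar : ∀ i i', c i 0 + w i 0 + ε + w i' 0 < p i' 0)
    (hhigh : ∀ i i', c i 2 + w i 2 + ε + w i' 2 < p i' 2)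
    (hslab : ∀ i i', i ≠ i' → w i 2 + w i' 2 + ε ≤ |p i 2 - p i' 2|)
    (s : Finset (Fin n)) (i₀ : Fin n) (hi₀ : i₀ ∉ s)
    (hmax : ∀ i, i ∉ s → c i 2 + w i 2 ≤ c i₀ 2 + w i₀ 2) :
    ReachW (fun i => obox (c i) (w i)) (parkState c p s) (parkState c p (insert i₀ s)) := by
  set u0 : Fin 3 → ℚ := fun _ => 0 with hu0
  set u1 : Fin 3 → ℚ := fun m => if m = 2 then p i₀ 2 - c i₀ 2 else 0 with hu1
  set u2 : Fin 3 → ℚ := fun m => if m = 1 then 0 else p i₀ m - c i₀ m with hu2
  set u3 : Fin 3 → ℚ := fun m => p i₀ m - c i₀ m with hu3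
  have hpos : 0 < p i₀ 2 - c i₀ 2 := by
    have := hhigh i₀ i₀; have := hw i₀ 2; linarith
  have e0 : ∀ i, ∀ x ∈ obox (c i) (w i), parkState c p s i x = liftState c p s i₀ u0 i x := by
    intro i x _
    by_cases hi : i = i₀
    · subst hi; funext m; simp [parkState, liftState, hi₀, hu0]
    · simp [parkState, liftState, hi]
  have e3 : ∀ i, ∀ x ∈ obox (c i) (w i),
      liftState c p s i₀ u3 i x = parkState c p (insert i₀ s) i x := by
    intro i x _
    by_cases hi : i = i₀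
    · subst hi; funext m; simp [parkState, liftState, hu3]; ring
    · simp [parkState, liftState, hi]
  have S1 : ReachW (fun i => obox (c i) (w i)) (liftState c p s i₀ u0) (liftState c p s i₀ u1) := by
    refine lift_slide c w p ε s i₀ 2 0 (by decide) u0 u1 ?_ (hw i₀) hε ?_
    · intro m hm; simp [hu0, hu1, hm]
    · intro i hi x hx
      by_cases his : i ∈ s
      · refine ⟨0, Or.inr ?_⟩
        have hx0 := (mem_obox_iff.mp hx) 0
        have hy : liftState c p s i₀ u0 i x 0 = x 0 - (c i 0 : ℝ) + (p i 0 : ℝ) := by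
          simp [liftState, hi, his]
        rw [hy]
        have h' : (c i₀ 0 : ℝ) + w i₀ 0 + ε + w i 0 < (p i 0 : ℝ) := by exact_mod_cast hfar i₀ i
        simp only [hu0, hu1]
        push_cast
        simp
        linarith [hx0.1]
      · obtain ⟨m, hm⟩ := hsep i₀ i (Ne.symm hi)
        have hxm := (mem_obox_iff.mp hx) m
        have hy : liftState c p s i₀ u0 i x m = x m := by
          simp [liftState, hi, his]
        have hu1m : 0 ≤ u1 m := by
          simp only [hu1]; split_ifs <;> linarith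
        refine ⟨m, ?_⟩
        rw [hy]
        rcases le_abs.mp hm with hA | hB
        · left
          have hA' : (w i₀ m : ℝ) + w i m + ε ≤ (c i₀ m : ℝ) - c i m := by exact_mod_cast hA
          have : min (u0 m) (u1 m) = 0 := by simp [hu0, hu1m]
          rw [this]
          push_cast
          linarith [hxm.2]
        · by_cases hm2 : m = 2
          · exfalso
            subst hm2
            have := hmax i his
            have := hw i 2
            linarith
          · right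
            have hB' : (w i₀ m : ℝ) + w i m + ε ≤ -((c i₀ m : ℝ) - c i m) := by exact_mod_cast hB
            have : max (u0 m) (u1 m) = 0 := by simp [hu0, hu1, hm2]
            rw [this]
            push_cast
            linarith [hxm.1]
  have S2 : ReachW (fun i => obox (c i) (w i)) (liftState c p s i₀ u1) (liftState c p s i₀ u2) := by
    refine lift_slide c w p ε s i₀ 0 1 (by decide) u1 u2 ?_ (hw i₀) hε ?_
    · intro m hm
      fin_cases m
      · exact absurd rfl hm
      · simp [hu1, hu2]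
      · simp [hu1, hu2]
    · exact slab_out c w p ε hw hhigh hslab s i₀ u1 u2 (by simp [hu1]) (by simp [hu2])
  have S3 : ReachW (fun i => obox (c i) (w i)) (liftState c p s i₀ u2) (liftState c p s i₀ u3) := by
    refine lift_slide c w p ε s i₀ 1 0 (by decide) u2 u3 ?_ (hw i₀) hε ?_
    · intro m hm
      simp [hu2, hu3, hm]
    · exact slab_out c w p ε hw hhigh hslab s i₀ u2 u3 (by simp [hu2]) (by simp [hu3])
  exact (((S1.trans S2).trans S3).congr_left (fun i x hx => (e0 i x hx).symm)).congr_right e3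

/-- Phase 1: all boxes can be parked. -/
theorem lift_all (hε : 0 < ε) (hw : ∀ i m, 0 < w i m)
    (hsep : ∀ i i', i ≠ i' → ∃ m, w i m + w i' m + ε ≤ |c i m - c i' m|)
    (hfar : ∀ i i', c i 0 + w i 0 + ε + w i' 0 < p i' 0)
    (hhigh : ∀ i i', c i 2 + w i 2 + ε + w i' 2 < p i' 2)
    (hslab : ∀ i i', i ≠ i' → w i 2 + w i' 2 + ε ≤ |p i 2 - p i' 2|) :
    ReachW (fun i => obox (c i) (w i)) (fun _ x => x)
      (fun i x m => x m - (c i m : ℝ) + (p i m : ℝ)) := by
  have key : ∀ k : ℕ, ∀ s : Finset (Fin n), (Finset.univ \ s).card = k →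
      ReachW (fun i => obox (c i) (w i)) (parkState c p s) (parkState c p Finset.univ) := by
    intro k
    induction k with
    | zero =>
      intro s hs
      have : s = Finset.univ := by
        rw [Finset.card_eq_zero, Finset.sdiff_eq_empty_iff_subset] at hs
        exact Finset.univ_subset_iff.mp hs
      rw [this]; exact ReachW.rfl' _
    | succ k ih =>
      intro s hs
      have hne : (Finset.univ \ s).Nonempty := by
        rw [← Finset.card_pos, hs]; exact Nat.succ_pos k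
      obtain ⟨i₀, hi₀, hmax⟩ := Finset.exists_max_image (Finset.univ \ s)
        (fun i => c i 2 + w i 2) hne
      have hi₀' : i₀ ∉ s := by simpa using hi₀
      have h1 := lift_one c w p ε hε hw hsep hfar hhigh hslab s i₀ hi₀'
        (fun i hi => hmax i (by simpa using hi))
      refine h1.trans (ih (insert i₀ s) ?_)
      have : Finset.univ \ insert i₀ s = (Finset.univ \ s).erase i₀ := by
        ext i; simp
      rw [this, Finset.card_erase_of_mem hi₀, hs]; rfl
  have h := key _ ∅ rfl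
  refine (h.congr_left ?_).congr_right ?_
  · intro i x _; simp [parkState]
  · intro i x _; simp [parkState]

end Lift

/-! ### Phase 2: reshaping the parked boxes by shears -/

section Reshape

variable (c w p r : Fin n → Fin 3 → ℚ) (ε ρ : ℚ)

/-- Placement during phase 2: all boxes are parked; those in `s` are reshaped, box `a` has shape
map `f`, the others have their original shape. -/
def shapeState (s : Finset (Fin n)) (a : Fin n) (f : E3 → E3) : Fin n → E3 → E3 :=
  fun i x => if i = a then (fun m => (p a m : ℝ) + f x m)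
    else if i ∈ s then (fun m => (p i m : ℝ) + (r i m : ℝ) * (x m - (c i m : ℝ)))
    else (fun m => x m - (c i m : ℝ) + (p i m : ℝ))

/-- One shear step applied to the shape map of box `a`. -/
theorem shape_shear (hε : 0 < ε) (hρ : 0 < ρ) (hr : ∀ i m, 0 < r i m)
    (hρw : ∀ i, w i 2 ≤ ρ) (hρw' : ∀ i, r i 2 * w i 2 ≤ ρ)
    (hslab : ∀ i i', i ≠ i' → 2 * ρ + ε ≤ |p i 2 - p i' 2|)
    (s : Finset (Fin n)) (a : Fin n) (j l : Fin 3) (hjl : j ≠ l) (κ K : ℚ) (hκ : |κ| ≤ K)
    (f : E3 → E3) (R : ℚ) (hR : ∀ x ∈ obox (c a) (w a), ∀ m, |f x m| < (R : ℝ))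
    (hR0 : 0 < R) (hRρ : (1 + K) * R ≤ ρ) :
    ReachW (fun i => obox (c i) (w i)) (shapeState c p r s a f)
      (shapeState c p r s a (fun x m => if m = j then f x j + (κ : ℝ) * f x l else f x m)) ∧
    ∀ x ∈ obox (c a) (w a), ∀ m,
      |(if m = j then f x j + (κ : ℝ) * f x l else f x m)| < (((1 + K) * R : ℚ) : ℝ) := by
  have hK : 0 ≤ K := le_trans (abs_nonneg κ) hκ
  have hκ' : |(κ : ℝ)| ≤ (K : ℝ) := by exact_mod_cast hκ
  have hK' : (0 : ℝ) ≤ (K : ℝ) := by exact_mod_cast hK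
  have hR0' : (0 : ℝ) < (R : ℝ) := by exact_mod_cast hR0
  have hRρ' : (1 + (K : ℝ)) * R ≤ (ρ : ℝ) := by exact_mod_cast hRρ
  have hbd : ∀ x ∈ obox (c a) (w a), ∀ m,
      |(if m = j then f x j + (κ : ℝ) * f x l else f x m)| < (1 + (K : ℝ)) * R := by
    intro x hx m
    split_ifs with hm
    · have h1 := hR x hx j
      have h2 := hR x hx l
      have h3 : |(κ : ℝ) * f x l| ≤ (K : ℝ) * R := by
        rw [abs_mul]
        exact mul_le_mul hκ' h2.le (abs_nonneg _) hK'
      have h4 := abs_add_le (f x j) ((κ : ℝ) * f x l)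
      linarith
    · have h1 := hR x hx m
      nlinarith
  refine ⟨?_, fun x hx m => by push_cast; exact hbd x hx m⟩
  refine ReachW.affine a j l hjl 0 κ (p a l) (Or.inr rfl)
    (fun m => p a m - ρ) (fun m => p a m + ρ) ε hε (fun m => by linarith) _ _ ?_ ?_ ?_ ?_
  · intro x hx m
    have h1 := abs_lt.mp (hR x hx m)
    have h2 : (R : ℝ) ≤ ρ := by nlinarith
    simp only [shapeState, if_true]
    push_cast
    constructor <;> linarith [h1.1, h1.2]
  · intro x hx
    have h1 := hbd x hx j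
    simp only [if_true] at h1
    have h1 := abs_lt.mp h1
    simp only [shapeState, if_true]
    push_cast
    constructor <;> linarith [h1.1, h1.2]
  · intro x hx m
    simp only [shapeState, if_true]
    by_cases hm : m = j
    · subst hm; simp; ring
    · simp [hm]
  · intro i hi x hx
    refine ⟨⟨2, ?_⟩, by simp [shapeState, hi]⟩
    have hx2 := (mem_obox_iff.mp hx) 2
    have hy : ∃ d : ℝ, shapeState c p r s a f i x 2 = (p i 2 : ℝ) + d ∧ |d| < (ρ : ℝ) := by
      by_cases his : i ∈ s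
      · refine ⟨(r i 2 : ℝ) * (x 2 - (c i 2 : ℝ)), by simp [shapeState, hi, his], ?_⟩
        have h1 : (0 : ℝ) < (r i 2 : ℝ) := by exact_mod_cast hr i 2
        have h2 : (r i 2 : ℝ) * w i 2 ≤ (ρ : ℝ) := by exact_mod_cast hρw' i
        rw [abs_lt]
        constructor <;> nlinarith [hx2.1, hx2.2]
      · refine ⟨x 2 - (c i 2 : ℝ), by simp [shapeState, hi, his]; ring, ?_⟩
        have h2 : (w i 2 : ℝ) ≤ (ρ : ℝ) := by exact_mod_cast hρw i
        rw [abs_lt]
        constructor <;> linarith [hx2.1, hx2.2]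
    obtain ⟨d, hd, hd'⟩ := hy
    rw [hd]
    have hd'' := abs_lt.mp hd'
    rcases le_abs.mp (hslab a i (Ne.symm hi)) with hA | hB
    · left
      have hA' : 2 * (ρ : ℝ) + ε ≤ (p a 2 : ℝ) - p i 2 := by exact_mod_cast hA
      push_cast
      linarith [hd''.2]
    · right
      have hB' : 2 * (ρ : ℝ) + ε ≤ -((p a 2 : ℝ) - p i 2) := by exact_mod_cast hB
      push_cast
      linarith [hd''.1]

/-- Four shears: the shape map of box `a` is rescaled by `diag(t, 1/t)` in the coordinates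
`(j, l)`. -/
theorem shape_pair (hε : 0 < ε) (hρ : 0 < ρ) (hr : ∀ i m, 0 < r i m)
    (hρw : ∀ i, w i 2 ≤ ρ) (hρw' : ∀ i, r i 2 * w i 2 ≤ ρ)
    (hslab : ∀ i i', i ≠ i' → 2 * ρ + ε ≤ |p i 2 - p i' 2|)
    (s : Finset (Fin n)) (a : Fin n) (j l : Fin 3) (hjl : j ≠ l) (t : ℚ) (ht : 0 < t)
    (f : E3 → E3) (R : ℚ) (hR : ∀ x ∈ obox (c a) (w a), ∀ m, |f x m| < (R : ℝ))
    (hR0 : 0 < R) (hRρ : (2 + t + 1 / t) ^ 4 * R ≤ ρ) :
    ReachW (fun i => obox (c i) (w i)) (shapeState c p r s a f)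
      (shapeState c p r s a
        (fun x m => if m = j then (t : ℝ) * f x j else if m = l then f x l / (t : ℝ) else f x m)) ∧
    ∀ x ∈ obox (c a) (w a), ∀ m,
      |(if m = j then (t : ℝ) * f x j else if m = l then f x l / (t : ℝ) else f x m)|
        < (((2 + t + 1 / t) ^ 4 * R : ℚ) : ℝ) := by
  have hti : 0 < 1 / t := by positivity
  set K : ℚ := 1 + t + 1 / t with hK
  have hK1 : 1 ≤ 1 + K := by linarith
  have hKe : 2 + t + 1 / t = 1 + K := by rw [hK]; ring
  rw [hKe] at hRρ ⊢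
  have hk1 : |1 / t - 1| ≤ K := by rw [abs_le]; constructor <;> linarith
  have hk2 : |(1 : ℚ)| ≤ K := by rw [abs_one]; linarith
  have hk3 : |t - 1| ≤ K := by rw [abs_le]; constructor <;> linarith
  have hk4 : |-(1 / t)| ≤ K := by rw [abs_neg, abs_of_pos hti]; linarith
  have hp1 : (1 + K) * R ≤ (1 + K) ^ 4 * R := by
    have : (1 + K) ^ 1 ≤ (1 + K) ^ 4 := pow_le_pow_right₀ hK1 (by norm_num)
    nlinarith
  have hp2 : (1 + K) * ((1 + K) * R) ≤ (1 + K) ^ 4 * R := by
    have : (1 + K) ^ 2 ≤ (1 + K) ^ 4 := pow_le_pow_right₀ hK1 (by norm_num)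
    nlinarith
  have hp3 : (1 + K) * ((1 + K) * ((1 + K) * R)) ≤ (1 + K) ^ 4 * R := by
    have : (1 + K) ^ 3 ≤ (1 + K) ^ 4 := pow_le_pow_right₀ hK1 (by norm_num)
    nlinarith
  have hp4 : (1 + K) * ((1 + K) * ((1 + K) * ((1 + K) * R))) = (1 + K) ^ 4 * R := by ring
  have hpos1 : 0 < (1 + K) * R := by positivity
  have hpos2 : 0 < (1 + K) * ((1 + K) * R) := by positivity
  have hpos3 : 0 < (1 + K) * ((1 + K) * ((1 + K) * R)) := by positivity
  have ht' : (t : ℝ) ≠ 0 := by exact_mod_cast ht.ne'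
  have hlj : l ≠ j := hjl.symm
  let f1 : E3 → E3 := fun x m => if m = j then f x j + ((1 / t - 1 : ℚ) : ℝ) * f x l else f x m
  let f2 : E3 → E3 := fun x m => if m = l then f1 x l + ((1 : ℚ) : ℝ) * f1 x j else f1 x m
  let f3 : E3 → E3 := fun x m => if m = j then f2 x j + ((t - 1 : ℚ) : ℝ) * f2 x l else f2 x m
  let f4 : E3 → E3 := fun x m => if m = l then f3 x l + ((-(1 / t) : ℚ) : ℝ) * f3 x j else f3 x m
  obtain ⟨A1, B1⟩ := shape_shear c w p r ε ρ hε hρ hr hρw hρw' hslab s a j l hjl (1 / t - 1) K hk1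
    f R hR hR0 (hp1.trans hRρ)
  obtain ⟨A2, B2⟩ := shape_shear c w p r ε ρ hε hρ hr hρw hρw' hslab s a l j hjl.symm 1 K hk2
    f1 _ B1 hpos1 (hp2.trans hRρ)
  obtain ⟨A3, B3⟩ := shape_shear c w p r ε ρ hε hρ hr hρw hρw' hslab s a j l hjl (t - 1) K hk3
    f2 _ B2 hpos2 (hp3.trans hRρ)
  obtain ⟨A4, B4⟩ := shape_shear c w p r ε ρ hε hρ hr hρw hρw' hslab s a l j hjl.symm (-(1 / t)) K
    hk4 f3 _ B3 hpos3 (hp4.le.trans hRρ)
  have key : ∀ x : E3, ∀ m : Fin 3, f4 x m =
      (if m = j then (t : ℝ) * f x j else if m = l then f x l / (t : ℝ) else f x m) := by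
    intro x m
    by_cases hmj : m = j
    · subst hmj
      simp only [f4, f3, f2, f1, hjl, hlj, if_true, if_false]
      push_cast
      field_simp
      ring
    · by_cases hml : m = l
      · subst hml
        simp only [f4, f3, f2, f1, hjl, hlj, if_true, if_false]
        push_cast
        field_simp
        ring
      · simp only [f4, f3, f2, f1, hmj, hml, if_false]
  have e : (fun x m => if m = j then (t : ℝ) * f x j else if m = l then f x l / (t : ℝ) else f x m)
      = f4 := funext fun x => funext fun m => (key x m).symm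
  refine ⟨?_, fun x hx m => ?_⟩
  · rw [e]; exact ((A1.trans A2).trans A3).trans A4
  · rw [← key x m]
    have := B4 x hx m
    rw [hp4] at this
    exact this

/-- Placement with all boxes parked, those in `s` reshaped. -/
def shapeAll (s : Finset (Fin n)) : Fin n → E3 → E3 :=
  fun i x => if i ∈ s then (fun m => (p i m : ℝ) + (r i m : ℝ) * (x m - (c i m : ℝ)))
    else (fun m => x m - (c i m : ℝ) + (p i m : ℝ))

theorem reshape_one (hε : 0 < ε) (hρ : 0 < ρ) (hw : ∀ i m, 0 < w i m) (hr : ∀ i m, 0 < r i m)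
    (hprod : ∀ i, r i 0 * r i 1 * r i 2 = 1)
    (hρw : ∀ i, w i 2 ≤ ρ) (hρw' : ∀ i, r i 2 * w i 2 ≤ ρ)
    (hslab : ∀ i i', i ≠ i' → 2 * ρ + ε ≤ |p i 2 - p i' 2|)
    (hρB : ∀ i, (2 + r i 0 * r i 1 + 1 / (r i 0 * r i 1)) ^ 4 *
      ((2 + r i 0 + 1 / r i 0) ^ 4 * (w i 0 + w i 1 + w i 2)) ≤ ρ)
    (s : Finset (Fin n)) (a : Fin n) (ha : a ∉ s) :
    ReachW (fun i => obox (c i) (w i)) (shapeAll c p r s) (shapeAll c p r (insert a s)) := by
  have h0 := hr a 0
  have h1 := hr a 1
  have h01 : 0 < r a 0 * r a 1 := mul_pos h0 h1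
  set R0 : ℚ := w a 0 + w a 1 + w a 2 with hR0def
  have hR0 : 0 < R0 := by have := hw a 0; have := hw a 1; have := hw a 2; linarith
  have hwm : ∀ m, w a m ≤ R0 := by
    intro m
    have := hw a 0; have := hw a 1; have := hw a 2
    fin_cases m <;> simp [hR0def] <;> linarith
  let f0 : E3 → E3 := fun x m => x m - (c a m : ℝ)
  have hR : ∀ x ∈ obox (c a) (w a), ∀ m, |f0 x m| < (R0 : ℝ) := by
    intro x hx m
    have h1 : |x m - (c a m : ℝ)| < (w a m : ℝ) := hx m
    have h2 : (w a m : ℝ) ≤ (R0 : ℝ) := by exact_mod_cast hwm m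
    exact lt_of_lt_of_le h1 h2
  set R1 : ℚ := (2 + r a 0 + 1 / r a 0) ^ 4 * R0 with hR1def
  have hR1 : 0 < R1 := by positivity
  have hB := hρB a
  have hone : 1 ≤ (2 + r a 0 * r a 1 + 1 / (r a 0 * r a 1)) ^ 4 := by
    have : 0 < 1 / (r a 0 * r a 1) := by positivity
    exact one_le_pow₀ (by linarith)
  have hB1 : R1 ≤ ρ := by
    have : R1 ≤ (2 + r a 0 * r a 1 + 1 / (r a 0 * r a 1)) ^ 4 * R1 :=
      le_mul_of_one_le_left hR1.le hone
    exact this.trans hB
  obtain ⟨A1, B1⟩ := shape_pair c w p r ε ρ hε hρ hr hρw hρw' hslab s a 0 1 (by decide) (r a 0) h0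
    f0 R0 hR hR0 hB1
  let g1 : E3 → E3 := fun x m =>
    if m = 0 then (r a 0 : ℝ) * f0 x 0 else if m = 1 then f0 x 1 / (r a 0 : ℝ) else f0 x m
  obtain ⟨A2, -⟩ := shape_pair c w p r ε ρ hε hρ hr hρw hρw' hslab s a 1 2 (by decide)
    (r a 0 * r a 1) h01 g1 R1 B1 hR1 hB
  refine ((A1.trans A2).congr_left ?_).congr_right ?_
  · intro i x _
    by_cases hi : i = a
    · subst hi; funext m; simp [shapeAll, shapeState, ha, f0]; ring
    · simp [shapeAll, shapeState, hi]
  · intro i x _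
    by_cases hi : i = a
    · subst hi
      have h0' : (r i 0 : ℝ) ≠ 0 := by exact_mod_cast h0.ne'
      have h1' : (r i 1 : ℝ) ≠ 0 := by exact_mod_cast h1.ne'
      have hp : (r i 0 : ℝ) * r i 1 * r i 2 = 1 := by exact_mod_cast hprod i
      have hr2 : (r i 2 : ℝ) = 1 / ((r i 0 : ℝ) * r i 1) := by
        field_simp; linarith
      funext m
      fin_cases m
      · simp [shapeAll, shapeState, g1, f0]
      · simp [shapeAll, shapeState, g1, f0]; field_simp
      · simp [shapeAll, shapeState, g1, f0]; rw [hr2]; field_simp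
    · simp [shapeAll, shapeState, hi]

/-- Phase 2: all parked boxes can be reshaped. -/
theorem reshape_all (hε : 0 < ε) (hρ : 0 < ρ) (hw : ∀ i m, 0 < w i m) (hr : ∀ i m, 0 < r i m)
    (hprod : ∀ i, r i 0 * r i 1 * r i 2 = 1)
    (hρw : ∀ i, w i 2 ≤ ρ) (hρw' : ∀ i, r i 2 * w i 2 ≤ ρ)
    (hslab : ∀ i i', i ≠ i' → 2 * ρ + ε ≤ |p i 2 - p i' 2|)
    (hρB : ∀ i, (2 + r i 0 * r i 1 + 1 / (r i 0 * r i 1)) ^ 4 *
      ((2 + r i 0 + 1 / r i 0) ^ 4 * (w i 0 + w i 1 + w i 2)) ≤ ρ) :
    ReachW (fun i => obox (c i) (w i)) (fun i x m => x m - (c i m : ℝ) + (p i m : ℝ))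
      (fun i x m => (p i m : ℝ) + (r i m : ℝ) * (x m - (c i m : ℝ))) := by
  have key : ∀ s : Finset (Fin n),
      ReachW (fun i => obox (c i) (w i)) (shapeAll c p r ∅) (shapeAll c p r s) := by
    intro s
    induction s using Finset.induction_on with
    | empty => exact ReachW.rfl' _
    | insert a s ha ih =>
      exact ih.trans (reshape_one c w p r ε ρ hε hρ hw hr hprod hρw hρw' hslab hρB s a ha)
  have h := key Finset.univ
  refine (h.congr_left ?_).congr_right ?_
  · intro i x _; simp [shapeAll]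
  · intro i x _; simp [shapeAll]

end Reshape

/-! ### Choice of the parameters and the final plan -/

theorem sep_of_disjoint (c h c' h' : Fin 3 → ℚ) (hh : ∀ m, 0 < h m) (hh' : ∀ m, 0 < h' m)
    (hd : Disjoint (box c h) (box c' h')) : ∃ m, h m + h' m < |c m - c' m| := by
  by_contra hcon
  push Not at hcon
  let x : E3 := fun m => max ((c m : ℝ) - h m) ((c' m : ℝ) - h' m)
  have hreal : ∀ m, |(c m : ℝ) - c' m| ≤ (h m : ℝ) + h' m := by
    intro m; exact_mod_cast hcon m
  have hx1 : x ∈ box c h := by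
    intro m
    have h1 := abs_le.mp (hreal m)
    have h2 : (0 : ℝ) < h m := by exact_mod_cast hh m
    have h3 : (0 : ℝ) < h' m := by exact_mod_cast hh' m
    rw [abs_le]
    refine ⟨?_, ?_⟩
    · have : (c m : ℝ) - h m ≤ x m := le_max_left _ _
      linarith
    · have : x m ≤ (c m : ℝ) + h m := max_le (by linarith) (by linarith [h1.1])
      linarith
  have hx2 : x ∈ box c' h' := by
    intro m
    have h1 := abs_le.mp (hreal m)
    have h2 : (0 : ℝ) < h m := by exact_mod_cast hh m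
    have h3 : (0 : ℝ) < h' m := by exact_mod_cast hh' m
    rw [abs_le]
    refine ⟨?_, ?_⟩
    · have : (c' m : ℝ) - h' m ≤ x m := le_max_right _ _
      linarith
    · have : x m ≤ (c' m : ℝ) + h' m := max_le (by linarith [h1.2]) (by linarith)
      linarith
  exact Set.disjoint_left.mp hd hx1 hx2

theorem exists_pos_le {ι : Type*} [Fintype ι] (F : ι → ℚ) (hF : ∀ q, 0 < F q) :
    ∃ g : ℚ, 0 < g ∧ ∀ q, g ≤ F q := by
  rcases isEmpty_or_nonempty ι with hι | hι
  · exact ⟨1, one_pos, fun q => (hι.false q).elim⟩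
  · obtain ⟨q₀, -, hmin⟩ := Finset.exists_min_image Finset.univ F Finset.univ_nonempty
    exact ⟨F q₀, hF q₀, fun q => hmin q (Finset.mem_univ q)⟩

theorem exists_ub {ι : Type*} [Fintype ι] (F : ι → ℚ) :
    ∃ A : ℚ, 0 < A ∧ ∀ q, F q ≤ A := by
  refine ⟨1 + ∑ q, |F q|, ?_, fun q => ?_⟩
  · have : 0 ≤ ∑ q, |F q| := Finset.sum_nonneg (fun q _ => abs_nonneg _)
    linarith
  · have h1 : |F q| ≤ ∑ q, |F q| :=
      Finset.single_le_sum (f := fun q => |F q|) (fun q _ => abs_nonneg _) (Finset.mem_univ q)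
    have h2 := le_abs_self (F q)
    linarith

theorem exists_gap (c h : Fin n → Fin 3 → ℚ) (hh : ∀ i m, 0 < h i m)
    (hd : Pairwise fun i i' => Disjoint (box (c i) (h i)) (box (c i') (h i'))) :
    ∃ g : ℚ, 0 < g ∧ ∀ i i', i ≠ i' → ∃ m, h i m + h i' m + g ≤ |c i m - c i' m| := by
  classical
  have hex : ∀ q : Fin n × Fin n, ∃ m : Fin 3, q.1 ≠ q.2 →
      0 < |c q.1 m - c q.2 m| - h q.1 m - h q.2 m := by
    intro q
    by_cases hq : q.1 = q.2
    · exact ⟨0, fun h => absurd hq h⟩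
    · obtain ⟨m, hm⟩ := sep_of_disjoint (c q.1) (h q.1) (c q.2) (h q.2) (hh q.1) (hh q.2) (hd hq)
      exact ⟨m, fun _ => by linarith⟩
  choose mm hmm using hex
  obtain ⟨g, hg, hgle⟩ := exists_pos_le
    (fun q : Fin n × Fin n => if q.1 = q.2 then 1
      else |c q.1 (mm q) - c q.2 (mm q)| - h q.1 (mm q) - h q.2 (mm q))
    (fun q => by
      by_cases hq : q.1 = q.2
      · simp [hq]
      · simp only [hq, if_false]; exact hmm q hq)
  refine ⟨g, hg, fun i i' hii' => ⟨mm (i, i'), ?_⟩⟩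
  have := hgle (i, i')
  simp only [hii', if_false] at this
  linarith

/-- Inflation: the source boxes and the target boxes can be enlarged by a common factor `1 + η`
and stay separated by a common margin `ε`. -/
theorem exists_inflate (a b h k : Fin n → Fin 3 → ℚ)
    (hh : ∀ i j, 0 < h i j) (hk : ∀ i j, 0 < k i j)
    (ha : Pairwise fun i i' => Disjoint (box (a i) (h i)) (box (a i') (h i')))
    (hb : Pairwise fun i i' => Disjoint (box (b i) (k i)) (box (b i') (k i'))) :
    ∃ η ε : ℚ, 0 < η ∧ 0 < ε ∧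
      (∀ i i', i ≠ i' → ∃ m, (1 + η) * h i m + (1 + η) * h i' m + ε ≤ |a i m - a i' m|) ∧
      (∀ i i', i ≠ i' → ∃ m, (1 + η) * k i m + (1 + η) * k i' m + ε ≤ |b i m - b i' m|) := by
  obtain ⟨g1, hg1, hgap1⟩ := exists_gap a h hh ha
  obtain ⟨g2, hg2, hgap2⟩ := exists_gap b k hk hb
  obtain ⟨S, hS, hSle⟩ := exists_ub (fun q : Fin n × Fin 3 => h q.1 q.2 + k q.1 q.2)
  have hhS : ∀ i m, h i m ≤ S := fun i m => by
    have h1 : h i m + k i m ≤ S := hSle (i, m)
    have h2 := hk i m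
    linarith
  have hkS : ∀ i m, k i m ≤ S := fun i m => by
    have h1 : h i m + k i m ≤ S := hSle (i, m)
    have h2 := hh i m
    linarith
  obtain ⟨g, hgdef⟩ : ∃ g : ℚ, g = min g1 g2 := ⟨_, rfl⟩
  have hg : 0 < g := by rw [hgdef]; exact lt_min hg1 hg2
  have hgg1 : g ≤ g1 := by rw [hgdef]; exact min_le_left _ _
  have hgg2 : g ≤ g2 := by rw [hgdef]; exact min_le_right _ _
  obtain ⟨η, hηdef⟩ : ∃ η : ℚ, η = g / (4 * S) := ⟨_, rfl⟩
  have hη : 0 < η := by rw [hηdef]; positivity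
  have hηS : η * (2 * S) = g / 2 := by rw [hηdef]; field_simp; ring
  refine ⟨η, g / 2, hη, by positivity, ?_, ?_⟩
  · intro i i' hii'
    obtain ⟨m, hm⟩ := hgap1 i i' hii'
    refine ⟨m, ?_⟩
    have h1 := hhS i m
    have h2 := hhS i' m
    have h3 : η * (h i m + h i' m) ≤ η * (2 * S) :=
      mul_le_mul_of_nonneg_left (by linarith) hη.le
    linarith
  · intro i i' hii'
    obtain ⟨m, hm⟩ := hgap2 i i' hii'
    refine ⟨m, ?_⟩
    have h1 := hkS i m
    have h2 := hkS i' m
    have h3 : η * (k i m + k i' m) ≤ η * (2 * S) :=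
      mul_le_mul_of_nonneg_left (by linarith) hη.le
    linarith

/-- Choice of the parking positions and of the size of the parking regions. -/
theorem exists_park (a b w w' r : Fin n → Fin 3 → ℚ) (ε : ℚ) (hε : 0 < ε)
    (hw : ∀ i m, 0 < w i m) (hw' : ∀ i m, 0 < w' i m) (hr : ∀ i m, 0 < r i m) :
    ∃ (ρ : ℚ) (p : Fin n → Fin 3 → ℚ), 0 < ρ ∧
      (∀ i, w i 2 ≤ ρ) ∧ (∀ i, r i 2 * w i 2 ≤ ρ) ∧
      (∀ i, (2 + r i 0 * r i 1 + 1 / (r i 0 * r i 1)) ^ 4 *
        ((2 + r i 0 + 1 / r i 0) ^ 4 * (w i 0 + w i 1 + w i 2)) ≤ ρ) ∧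
      (∀ i i', i ≠ i' → 2 * ρ + ε ≤ |p i 2 - p i' 2|) ∧
      (∀ i i', a i 0 + w i 0 + ε + w i' 0 < p i' 0) ∧
      (∀ i i', a i 2 + w i 2 + ε + w i' 2 < p i' 2) ∧
      (∀ i i', b i 0 + w' i 0 + ε + w' i' 0 < p i' 0) ∧
      (∀ i i', b i 2 + w' i 2 + ε + w' i' 2 < p i' 2) := by
  -- a bound for all coordinates and half-widths
  obtain ⟨A, hA, hAle⟩ := exists_ub
    (fun q : Fin n × Fin 3 => |a q.1 q.2| + |b q.1 q.2| + w q.1 q.2 + w' q.1 q.2)
  have hAll : ∀ i m, a i m ≤ A ∧ b i m ≤ A ∧ w i m ≤ A ∧ w' i m ≤ A := fun i m => by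
    have h1 : |a i m| + |b i m| + w i m + w' i m ≤ A := hAle (i, m)
    have h2 := hw i m
    have h3 := hw' i m
    have h4 := le_abs_self (a i m)
    have h5 := abs_nonneg (a i m)
    have h6 := le_abs_self (b i m)
    have h7 := abs_nonneg (b i m)
    refine ⟨?_, ?_, ?_, ?_⟩ <;> linarith
  -- the size of the parking regions
  obtain ⟨ρ, hρ, hρle⟩ := exists_ub (fun i : Fin n => w i 2 + r i 2 * w i 2 +
    (2 + r i 0 * r i 1 + 1 / (r i 0 * r i 1)) ^ 4 *
      ((2 + r i 0 + 1 / r i 0) ^ 4 * (w i 0 + w i 1 + w i 2)))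
  have hBpos : ∀ i, 0 < (2 + r i 0 * r i 1 + 1 / (r i 0 * r i 1)) ^ 4 *
      ((2 + r i 0 + 1 / r i 0) ^ 4 * (w i 0 + w i 1 + w i 2)) := by
    intro i
    have := hr i 0; have := hr i 1; have := hw i 0; have := hw i 1; have := hw i 2
    positivity
  have hrw : ∀ i, 0 < r i 2 * w i 2 := fun i => mul_pos (hr i 2) (hw i 2)
  obtain ⟨Δ, hΔdef⟩ : ∃ Δ : ℚ, Δ = 2 * ρ + ε := ⟨_, rfl⟩
  have hΔ : 0 < Δ := by rw [hΔdef]; positivity
  obtain ⟨X, hXdef⟩ : ∃ X : ℚ, X = 3 * A + ε + 1 := ⟨_, rfl⟩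
  refine ⟨ρ, fun i m => if m = 0 then X else if m = 2 then X + Δ * ((i : ℕ) : ℚ) else 0, hρ,
    fun i => ?_, fun i => ?_, fun i => ?_, ?_, ?_, ?_, ?_, ?_⟩
  · have h1 := hρle i; have h2 := hBpos i; have h3 := hrw i; linarith
  · have h1 := hρle i; have h2 := hBpos i; have h3 := hw i 2; linarith
  · have h1 := hρle i; have h2 := hrw i; have h3 := hw i 2; linarith
  · intro i i' hii'
    have hne : (i : ℕ) ≠ (i' : ℕ) := Fin.val_ne_of_ne hii'
    have h1 : (1 : ℚ) ≤ |((i : ℕ) : ℚ) - ((i' : ℕ) : ℚ)| := by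
      rcases lt_or_gt_of_ne hne with hlt | hlt
      · have : ((i : ℕ) : ℚ) + 1 ≤ ((i' : ℕ) : ℚ) := by exact_mod_cast hlt
        rw [le_abs]; right; linarith
      · have : ((i' : ℕ) : ℚ) + 1 ≤ ((i : ℕ) : ℚ) := by exact_mod_cast hlt
        rw [le_abs]; left; linarith
    have h2 : (if (2 : Fin 3) = 0 then X else if (2 : Fin 3) = 2 then X + Δ * ((i : ℕ) : ℚ) else 0)
        - (if (2 : Fin 3) = 0 then X else if (2 : Fin 3) = 2 then X + Δ * ((i' : ℕ) : ℚ) else 0)
        = Δ * (((i : ℕ) : ℚ) - ((i' : ℕ) : ℚ)) := by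
      simp; ring
    rw [h2, abs_mul, abs_of_pos hΔ]
    have h3 := le_mul_of_one_le_right hΔ.le h1
    linarith
  · intro i i'
    have h1 := hAll i 0; have h2 := hAll i' 0
    simp only [if_true]
    linarith [h1.1, h1.2.2.1, h2.2.2.1]
  · intro i i'
    have h1 := hAll i 2; have h2 := hAll i' 2
    have h3 : (0 : ℚ) ≤ Δ * ((i' : ℕ) : ℚ) := mul_nonneg hΔ.le (Nat.cast_nonneg _)
    have h4 : (if (2 : Fin 3) = 0 then X else if (2 : Fin 3) = 2 then X + Δ * ((i' : ℕ) : ℚ) else 0)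
        = X + Δ * ((i' : ℕ) : ℚ) := by simp
    beta_reduce
    rw [h4]
    linarith [h1.1, h1.2.2.1, h2.2.2.1]
  · intro i i'
    have h1 := hAll i 0; have h2 := hAll i' 0
    simp only [if_true]
    linarith [h1.2.1, h1.2.2.2, h2.2.2.2]
  · intro i i'
    have h1 := hAll i 2; have h2 := hAll i' 2
    have h3 : (0 : ℚ) ≤ Δ * ((i' : ℕ) : ℚ) := mul_nonneg hΔ.le (Nat.cast_nonneg _)
    have h4 : (if (2 : Fin 3) = 0 then X else if (2 : Fin 3) = 2 then X + Δ * ((i' : ℕ) : ℚ) else 0)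
        = X + Δ * ((i' : ℕ) : ℚ) := by simp
    beta_reduce
    rw [h4]
    linarith [h1.2.1, h1.2.2.2, h2.2.2.2]

/-- **The motion plan.** Finitely many disjoint rational boxes can be moved, by finitely many
localised translations and shears, onto disjoint target boxes with the prescribed affine maps. -/
theorem exists_plan (n : ℕ) (a b h k : Fin n → Fin 3 → ℚ)
    (hh : ∀ i j, 0 < h i j) (hk : ∀ i j, 0 < k i j)
    (ha : Pairwise fun i i' => Disjoint (box (a i) (h i)) (box (a i') (h i')))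
    (hb : Pairwise fun i i' => Disjoint (box (b i) (k i)) (box (b i') (k i')))
    (hvol : ∀ i, ∏ j : Fin 3, k i j / h i j = 1) :
    ∃ O : Fin n → Set E3, (∀ i, IsOpen (O i)) ∧ (∀ i, box (a i) (h i) ⊆ O i) ∧
      Reach O (fun _ x => x)
        (fun i x j => (b i j : ℝ) + ((k i j / h i j : ℚ) : ℝ) * (x j - (a i j : ℝ))) := by
  classical
  obtain ⟨η, ε, hη, hε, hsep1, hsep2⟩ := exists_inflate a b h k hh hk ha hb
  have hr : ∀ i m, 0 < k i m / h i m := fun i m => div_pos (hk i m) (hh i m)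
  have hprod : ∀ i, k i 0 / h i 0 * (k i 1 / h i 1) * (k i 2 / h i 2) = 1 := by
    intro i; have := hvol i; rw [Fin.prod_univ_three] at this; exact this
  have hw : ∀ i m, 0 < (1 + η) * h i m := fun i m => mul_pos (by linarith) (hh i m)
  have hw' : ∀ i m, 0 < (1 + η) * k i m := fun i m => mul_pos (by linarith) (hk i m)
  have hww' : ∀ i m, (1 + η) * k i m = k i m / h i m * ((1 + η) * h i m) := by
    intro i m; field_simp [(hh i m).ne']
  obtain ⟨ρ, p, hρ, hρw, hρw', hρB, hslab, hfar1, hhigh1, hfar2, hhigh2⟩ :=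
    exists_park a b (fun i m => (1 + η) * h i m) (fun i m => (1 + η) * k i m)
      (fun i m => k i m / h i m) ε hε hw hw' hr
  have hslab1 : ∀ i i', i ≠ i' →
      (1 + η) * h i 2 + (1 + η) * h i' 2 + ε ≤ |p i 2 - p i' 2| := by
    intro i i' hii'
    have h1 := hslab i i' hii'
    have h2 : (1 + η) * h i 2 ≤ ρ := hρw i
    have h3 : (1 + η) * h i' 2 ≤ ρ := hρw i'
    linarith
  have hslab2 : ∀ i i', i ≠ i' →
      (1 + η) * k i 2 + (1 + η) * k i' 2 + ε ≤ |p i 2 - p i' 2| := by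
    intro i i' hii'
    have h1 := hslab i i' hii'
    have h2 : k i 2 / h i 2 * ((1 + η) * h i 2) ≤ ρ := hρw' i
    have h3 : k i' 2 / h i' 2 * ((1 + η) * h i' 2) ≤ ρ := hρw' i'
    rw [hww' i 2, hww' i' 2]
    linarith
  -- phase 1
  have L1 := lift_all a (fun i m => (1 + η) * h i m) p ε hε hw hsep1 hfar1 hhigh1 hslab1
  -- phase 2
  have L2 := reshape_all a (fun i m => (1 + η) * h i m) p (fun i m => k i m / h i m) ε ρ hε hρ hw hr
    hprod hρw hρw' hslab hρB
  -- phase 3
  have L3 := lift_all b (fun i m => (1 + η) * k i m) p ε hε hw' hsep2 hfar2 hhigh2 hslab2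
  let τ : Fin n → E3 → E3 :=
    fun i x j => (b i j : ℝ) + ((k i j / h i j : ℚ) : ℝ) * (x j - (a i j : ℝ))
  have hτ : ∀ i, ∀ x ∈ obox (a i) (fun m => (1 + η) * h i m),
      τ i x ∈ obox (b i) (fun m => (1 + η) * k i m) := by
    intro i x hx m
    have h1 : |x m - (a i m : ℝ)| < (((1 + η) * h i m : ℚ) : ℝ) := hx m
    have h2 : (0 : ℝ) < ((k i m / h i m : ℚ) : ℝ) := by exact_mod_cast hr i m
    have h3 : (((1 + η) * k i m : ℚ) : ℝ)
        = ((k i m / h i m : ℚ) : ℝ) * (((1 + η) * h i m : ℚ) : ℝ) := by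
      exact_mod_cast hww' i m
    have h4 : τ i x m - (b i m : ℝ) = ((k i m / h i m : ℚ) : ℝ) * (x m - (a i m : ℝ)) := by
      simp only [τ]; ring
    show |τ i x m - (b i m : ℝ)| < (((1 + η) * k i m : ℚ) : ℝ)
    rw [h4, abs_mul, abs_of_pos h2, h3]
    exact mul_lt_mul_of_pos_left h1 h2
  have L3' := (L3.symm).comp τ hτ
  refine ⟨fun i => obox (a i) (fun m => (1 + η) * h i m), fun i => isOpen_obox _ _, fun i => ?_, ?_⟩
  · refine box_subset_obox _ _ _ (fun m => ?_)
    have h1 := mul_pos hη (hh i m)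
    show h i m < (1 + η) * h i m
    linarith
  · have W : ReachW (fun i => obox (a i) (fun m => (1 + η) * h i m)) (fun _ x => x) τ := by
      refine (L1.trans L2).trans (L3'.congr_left ?_)
      intro i x _
      funext m
      simp only [τ]
      ring
    rcases W.toReach τ (fun _ _ _ => rfl) with h1 | h1
    · -- degenerate case: nothing has to move; use one dummy move far away
      obtain ⟨A, hA, hAle⟩ := exists_ub (fun i : Fin n => a i 0 + (1 + η) * h i 0)
      refine Reach.step ⟨0, 1, by decide, 0, 0, 0, fun _ => A + 1, fun _ => A + 2, 1,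
        fun _ => by linarith, one_pos, Or.inl rfl⟩ _ τ τ (fun i x hx => Or.inr ⟨⟨0, Or.inl ?_⟩, ?_⟩)
        (Reach.refl τ)
      · have hx0 := (mem_obox_iff.mp hx) 0
        have h2 : (a i 0 : ℝ) + (((1 + η) * h i 0 : ℚ) : ℝ) ≤ (A : ℝ) := by exact_mod_cast hAle i
        push_cast at h2 hx0 ⊢
        linarith [hx0.2]
      · exact (h1 i x hx).symm
    · exact h1

end Crest.Agent.Helper11
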